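import Vale.Agent.P325.H111.K2.Stmts

/-!
# Anticoncentration of the values of strings (package A1)
-/

namespace Vale.Agent.P325.K2.H695

open Finset

/-! ### Central binomial coefficients -/

theorem centralBinom_sq (h : ℕ) : (Nat.centralBinom h) ^ 2 * (2 * h + 1) ≤ 16 ^ h := by
  induction h with
  | zero => simp [Nat.centralBinom]
  | succ h ih =>
    have h1 := Nat.succ_mul_centralBinom_succ h
    have h2 : (h + 1) ^ 2 * ((Nat.centralBinom (h + 1)) ^ 2 * (2 * (h + 1) + 1)) ≤
        (h + 1) ^ 2 * 16 ^ (h + 1) := by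
      calc (h + 1) ^ 2 * ((Nat.centralBinom (h + 1)) ^ 2 * (2 * (h + 1) + 1))
          = ((h + 1) * Nat.centralBinom (h + 1)) ^ 2 * (2 * h + 3) := by ring
        _ = (2 * (2 * h + 1) * Nat.centralBinom h) ^ 2 * (2 * h + 3) := by rw [h1]
        _ = (Nat.centralBinom h ^ 2 * (2 * h + 1)) * (4 * ((2 * h + 1) * (2 * h + 3))) := by ring
        _ ≤ 16 ^ h * (4 * (4 * (h + 1) ^ 2)) := by
          refine Nat.mul_le_mul ih ?_
          nlinarith
        _ = (h + 1) ^ 2 * 16 ^ (h + 1) := by ring
    exact Nat.le_of_mul_le_mul_left h2 (by positivity)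

theorem choose_half_sq (m : ℕ) : (m.choose (m / 2)) ^ 2 * (m + 1) ≤ 4 ^ m := by
  rcases Nat.even_or_odd' m with ⟨h, rfl | rfl⟩
  · have h1 : 2 * h / 2 = h := by omega
    rw [h1]
    have h2 := centralBinom_sq h
    rw [Nat.centralBinom] at h2
    calc _ ≤ 16 ^ h := h2
      _ = 4 ^ (2 * h) := by rw [pow_mul]; norm_num
  · have h1 : (2 * h + 1) / 2 = h := by omega
    rw [h1]
    have h2 := centralBinom_sq (h + 1)
    have h3 : Nat.centralBinom (h + 1) = 2 * (2 * h + 1).choose h := by
      rw [Nat.centralBinom]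
      have : 2 * (h + 1) = (2 * h + 1) + 1 := by ring
      rw [this, Nat.choose_succ_succ, Nat.choose_symm_half]
      ring
    rw [h3] at h2
    have h4 : 4 * ((2 * h + 1).choose h ^ 2 * (2 * h + 1 + 1)) ≤ 4 * 4 ^ (2 * h + 1) := by
      calc 4 * ((2 * h + 1).choose h ^ 2 * (2 * h + 1 + 1))
          ≤ (2 * (2 * h + 1).choose h) ^ 2 * (2 * (h + 1) + 1) := by nlinarith
        _ ≤ 16 ^ (h + 1) := h2
        _ = 4 * 4 ^ (2 * h + 1) := by
          rw [show (16 : ℕ) = 4 ^ 2 by norm_num, ← pow_mul]
          ring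
    omega

/-- The middle binomial coefficient. -/
theorem choose_half_le (m : ℕ) : ((m.choose (m / 2) : ℕ) : ℝ) ≤ 2 ^ m / Real.sqrt (m + 1) := by
  have h1 : (0 : ℝ) < m + 1 := by positivity
  rw [le_div_iff₀ (Real.sqrt_pos.2 h1)]
  refine le_of_sq_le_sq ?_ (by positivity)
  rw [mul_pow, Real.sq_sqrt h1.le]
  have h2 := choose_half_sq m
  calc ((m.choose (m / 2) : ℕ) : ℝ) ^ 2 * (m + 1) ≤ 4 ^ m := by exact_mod_cast h2
    _ = (2 ^ m) ^ 2 := by rw [← pow_mul, mul_comm, pow_mul]; norm_num

theorem choose_mono_half {m a b : ℕ} (hab : a ≤ b) (hb : b ≤ m / 2) :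
    m.choose a ≤ m.choose b := by
  induction b, hab using Nat.le_induction with
  | base => rfl
  | succ b hab ih =>
    exact (ih (by omega)).trans (Nat.choose_le_succ_of_lt_half_left (by omega))

theorem choose_anti_half {m a b : ℕ} (ha : m / 2 < a) (hab : a ≤ b) (hb : b ≤ m) :
    m.choose b ≤ m.choose a := by
  rw [← Nat.choose_symm hb, ← Nat.choose_symm (hab.trans hb)]
  exact choose_mono_half (by omega) (by omega)

/-- The sum of binomial coefficients over a set with gaps. -/
theorem sum_sep (m s : ℕ) (P : ℕ → Prop) [DecidablePred P]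
    (hP : ∀ k k', P k → P k' → k < k' → k + s ≤ k') :
    s * ∑ k ∈ range (m + 1) with P k, m.choose k ≤ 2 * s * m.choose (m / 2) + 2 ^ m := by
  classical
  -- the windows
  let I : ℕ → Finset ℕ := fun k =>
    if k + s ≤ m / 2 + 1 then Ico k (k + s) else if m / 2 + s ≤ k then Ioc (k - s) k else ∅
  let nr : ℕ → Prop := fun k => m / 2 + 1 < k + s ∧ k < m / 2 + s
  have h1 : ∀ k ∈ (range (m + 1)).filter P, s * m.choose k ≤
      (∑ j ∈ I k, m.choose j) + (if nr k then s * m.choose (m / 2) else 0) := by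
    intro k hk
    rw [mem_filter, mem_range] at hk
    by_cases c1 : k + s ≤ m / 2 + 1
    · have h2 : ∑ j ∈ I k, m.choose k ≤ ∑ j ∈ I k, m.choose j := by
        refine sum_le_sum fun j hj => ?_
        simp only [I, if_pos c1, mem_Ico] at hj
        exact choose_mono_half (by omega) (by omega)
      have h3 : #(I k) = s := by simp [I, if_pos c1]
      rw [sum_const, h3, smul_eq_mul] at h2
      omega
    · by_cases c2 : m / 2 + s ≤ k
      · have h2 : ∑ j ∈ I k, m.choose k ≤ ∑ j ∈ I k, m.choose j := by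
          refine sum_le_sum fun j hj => ?_
          simp only [I, if_neg c1, if_pos c2, mem_Ioc] at hj
          exact choose_anti_half (by omega) (by omega) (by omega)
        have h3 : #(I k) = s := by
          simp only [I, if_neg c1, if_pos c2, Nat.card_Ioc]
          omega
        rw [sum_const, h3, smul_eq_mul] at h2
        omega
      · have h2 : nr k := ⟨by omega, by omega⟩
        rw [if_pos h2]
        have h3 := Nat.mul_le_mul_left s (Nat.choose_le_middle k m)
        omega
  rw [mul_sum]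
  refine (sum_le_sum h1).trans ?_
  rw [sum_add_distrib, add_comm]
  refine Nat.add_le_add ?_ ?_
  · rw [← sum_filter, sum_const, smul_eq_mul, ← mul_assoc, mul_assoc 2 s, ← mul_assoc]
    have h2 : #(((range (m + 1)).filter P).filter nr) ≤ 2 := by
      have h3 : Set.InjOn (fun k : ℕ => decide (k ≤ m / 2))
          (((range (m + 1)).filter P).filter nr : Finset ℕ) := by
        intro k hk k' hk' h4
        simp only [coe_filter, mem_filter, mem_range, Set.mem_ofPred_eq] at hk hk'
        simp only [decide_eq_decide] at h4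
        by_contra h5
        rcases lt_or_gt_of_ne h5 with h6 | h6
        · have := hP k k' hk.1.2 hk'.1.2 h6
          have h7 := hk.2
          have h8 := hk'.2
          simp only [nr] at h7 h8
          by_cases h9 : k ≤ m / 2
          · have := h4.1 h9
            omega
          · have := mt h4.2 h9
            omega
        · have := hP k' k hk'.1.2 hk.1.2 h6
          have h7 := hk.2
          have h8 := hk'.2
          simp only [nr] at h7 h8
          by_cases h9 : k ≤ m / 2
          · have := h4.1 h9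
            omega
          · have := mt h4.2 h9
            omega
      calc _ ≤ #(univ : Finset Bool) := card_le_card_of_injOn _ (fun _ _ => mem_univ _) h3
        _ = 2 := rfl
    exact Nat.mul_le_mul_right _ (Nat.mul_le_mul_right _ h2)
  · rw [← sum_biUnion]
    · calc _ ≤ ∑ j ∈ range (m + 1), m.choose j := by
            refine sum_le_sum_of_subset ?_
            intro j hj
            rw [mem_biUnion] at hj
            obtain ⟨k, hk, hj⟩ := hj
            rw [mem_filter, mem_range] at hk
            rw [mem_range]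
            simp only [I] at hj
            split_ifs at hj with c1 c2
            · rw [mem_Ico] at hj; omega
            · rw [mem_Ioc] at hj; omega
            · simp at hj
        _ = 2 ^ m := Nat.sum_range_choose m
    · intro k hk k' hk' hne
      simp only [coe_filter, mem_range, Set.mem_ofPred_eq] at hk hk'
      rw [Function.onFun, disjoint_left]
      intro j hj hj'
      simp only [I] at hj hj'
      rcases lt_or_gt_of_ne hne with h6 | h6
      · have h7 := hP k k' hk.2 hk'.2 h6
        split_ifs at hj hj' with c1 c2 c3 c4 c5 c6 <;>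
          simp only [mem_Ico, mem_Ioc, notMem_empty] at hj hj' <;> omega
      · have h7 := hP k' k hk'.2 hk.2 h6
        split_ifs at hj hj' with c1 c2 c3 c4 c5 c6 <;>
          simp only [mem_Ico, mem_Ioc, notMem_empty] at hj hj' <;> omega

/-! ### Counting strings -/

theorem sum_sgz {m : ℕ} (y : Fin m → Bool) :
    ∑ i, sgz (y i) = 2 * (#{i | y i = true} : ℤ) - m := by
  have h1 : ∀ i, sgz (y i) = 2 * (if y i = true then 1 else 0) - 1 := by
    intro i
    unfold sgz
    cases y i <;> simp
  simp only [h1, sum_sub_distrib, ← mul_sum, sum_boole, sum_const, card_univ, Fintype.card_fin]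
  simp

theorem sum_bits {m : ℕ} (F : ℕ → ℝ) :
    ∑ y : Fin m → Bool, F #{i | y i = true} = ∑ k ∈ range (m + 1), (m.choose k : ℝ) * F k := by
  have h1 : ∑ y : Fin m → Bool, F #{i | y i = true} =
      ∑ S ∈ (univ : Finset (Fin m)).powerset, F #S := by
    refine sum_bij' (fun y _ => ({i | y i = true} : Finset (Fin m))) (fun S _ i => decide (i ∈ S))
      ?_ ?_ ?_ ?_ ?_
    · intro y _; simp
    · intro S _; simp
    · intro y _; ext i; simp
    · intro S _; ext i; simp
    · intro y _; rfl
  rw [h1, sum_powerset_apply_card]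
  simp [card_univ]

theorem ballThm : BallThm := by
  classical
  refine ⟨5, by norm_num, ?_⟩
  intro L hL _ v
  set m := L * L with hm
  have hL0 : 0 < L := by omega
  -- the two classes
  let P1 : ℕ → Prop := fun k => (2 * (k : ℤ) - m + L) % (4 * L) = 3 * L - v
  let P2 : ℕ → Prop := fun k => (2 * (k : ℤ) - m + L) % (4 * L) = L + v
  have sep : ∀ c : ℤ, ∀ k k' : ℕ, (2 * (k : ℤ) - m + L) % (4 * L) = c →
      (2 * (k' : ℤ) - m + L) % (4 * L) = c → k < k' → k + 2 * L ≤ k' := by
    intro c k k' h1 h2 h3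
    have h4 : (4 * (L : ℤ)) ∣ (2 * (k' : ℤ) - m + L) - (2 * (k : ℤ) - m + L) :=
      Int.ModEq.dvd (show (2 * (k : ℤ) - m + L) ≡ (2 * (k' : ℤ) - m + L) [ZMOD 4 * L] from
        h1.trans h2.symm)
    obtain ⟨q, hq⟩ := h4
    have h5 : (k' : ℤ) - k = 2 * L * q := by linarith
    have h6 : 0 < q := by
      by_contra h7
      have h8 : q ≤ 0 := by omega
      have : 2 * (L : ℤ) * q ≤ 0 := mul_nonpos_of_nonneg_of_nonpos (by positivity) h8
      omega
    have h7 : 2 * (L : ℤ) * 1 ≤ 2 * L * q := mul_le_mul_of_nonneg_left h6 (by positivity)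
    omega
  have hcl : ∀ k : ℕ, tw L (2 * (k : ℤ) - m) = v → P1 k ∨ P2 k := by
    intro k hk
    simp only [tw] at hk
    simp only [P1, P2]
    have h1 : |(2 * (k : ℤ) - m + L) % (4 * L) - 2 * L| = L - v := by omega
    rcases abs_cases ((2 * (k : ℤ) - m + L) % (4 * L) - 2 * L) with ⟨h2, _⟩ | ⟨h2, _⟩
    · left; omega
    · right; omega
  -- the probability
  have h1 : Pr (fun y : Fin m → Bool => xv L y = v) =
      (∑ k ∈ range (m + 1), (m.choose k : ℝ) * (if tw L (2 * (k : ℤ) - m) = v then 1 else 0)) /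
        2 ^ m := by
    rw [← sum_bits fun k => if tw L (2 * (k : ℤ) - m) = v then (1 : ℝ) else 0]
    unfold Pr Ex
    congr 1
    · refine sum_congr rfl fun y _ => ?_
      have h9 : xv L y = tw L (2 * (#{i | y i = true} : ℤ) - m) := by
        unfold xv
        rw [sum_sgz]
      by_cases h8 : tw L (2 * (#{i | y i = true} : ℤ) - m) = v
      · rw [if_pos h8]
        exact if_pos (h9.trans h8)
      · rw [if_neg h8]
        exact if_neg (fun h => h8 (h9.symm.trans h))
    · simp
  rw [h1]
  have h2 : (∑ k ∈ range (m + 1), (m.choose k : ℝ) *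
      (if tw L (2 * (k : ℤ) - m) = v then 1 else 0)) ≤
      ((∑ k ∈ range (m + 1) with P1 k, m.choose k : ℕ) : ℝ) +
        ((∑ k ∈ range (m + 1) with P2 k, m.choose k : ℕ) : ℝ) := by
    rw [sum_filter, sum_filter]
    push_cast
    rw [← sum_add_distrib]
    refine sum_le_sum fun k _ => ?_
    have h3 : (0 : ℝ) ≤ m.choose k := Nat.cast_nonneg _
    by_cases h4 : tw L (2 * (k : ℤ) - m) = v
    · rw [if_pos h4]
      rcases hcl k h4 with h5 | h5
      · rw [if_pos h5]
        split_ifs <;> linarith
      · rw [if_pos h5]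
        split_ifs <;> linarith
    · rw [if_neg h4]
      split_ifs <;> linarith
  have h3 := sum_sep m (2 * L) P1 (sep _)
  have h4 := sum_sep m (2 * L) P2 (sep _)
  have h3' : (2 * L : ℝ) * ((∑ k ∈ range (m + 1) with P1 k, m.choose k : ℕ) : ℝ) ≤
      2 * (2 * L) * (m.choose (m / 2) : ℕ) + 2 ^ m := by exact_mod_cast h3
  have h4' : (2 * L : ℝ) * ((∑ k ∈ range (m + 1) with P2 k, m.choose k : ℕ) : ℝ) ≤
      2 * (2 * L) * (m.choose (m / 2) : ℕ) + 2 ^ m := by exact_mod_cast h4
  have h5 : ((m.choose (m / 2) : ℕ) : ℝ) * L ≤ 2 ^ m := by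
    have h6 := choose_half_le m
    have h7 : (L : ℝ) ≤ Real.sqrt (m + 1) := by
      refine Real.le_sqrt_of_sq_le ?_
      rw [hm]
      push_cast
      nlinarith
    have h8 : (0 : ℝ) < L := by exact_mod_cast hL0
    calc ((m.choose (m / 2) : ℕ) : ℝ) * L ≤ (2 ^ m / Real.sqrt (m + 1)) * Real.sqrt (m + 1) :=
          mul_le_mul h6 h7 h8.le (by positivity)
      _ = 2 ^ m := div_mul_cancel₀ _ (ne_of_gt (lt_of_lt_of_le h8 h7))
  have h6 : (0 : ℝ) < L := by exact_mod_cast hL0
  rw [div_le_div_iff₀ (by positivity) h6]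
  calc _ ≤ (((∑ k ∈ range (m + 1) with P1 k, m.choose k : ℕ) : ℝ) +
        ((∑ k ∈ range (m + 1) with P2 k, m.choose k : ℕ) : ℝ)) * L :=
        mul_le_mul_of_nonneg_right h2 h6.le
    _ ≤ 5 * 2 ^ m := by nlinarith

end Vale.Agent.P325.K2.H695
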